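import Vale.Agent.P213.Sd.Poset
import Vale.Agent.P213.Defs

/-!
# P213, Sd: double subdivisions of horns and boundaries are nerves of Dwyer sieves
-/

open CategoryTheory Simplicial Opposite PartialOrder

noncomputable section

namespace Vale.Agent.P213

/-- The poset of the double subdivision of a simplex. -/
abbrev P2 (m : ℕ) : Type := NonemptyFiniteChains (NonemptyFiniteChains (Fin (m + 1)))

end Vale.Agent.P213

namespace Vale.Agent.P213.Sd

variable {m : ℕ}

/-- The vertices of a simplex. -/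
def stdMap (m : ℕ) : (Δ[m] : SSet.{0}) ⟶ CategoryTheory.nerve (Fin (m + 1)) :=
  (SSet.stdSimplex.isoNerve m).hom ≫
    CategoryTheory.nerveMap (Monotone.functor (f := ULift.down) fun _ _ h => h)

theorem stdMap_injective (d : SimplexCategoryᵒᵖ) : Function.Injective ((stdMap m).app d) := by
  intro x y h
  refine SSet.stdSimplex.objEquiv.injective ?_
  ext i
  exact congrArg Fin.val
    (DFunLike.congr_fun (congrArg (fun s => hom s) h) (ULift.up i))

theorem stdMap_surjective (d : SimplexCategoryᵒᵖ) : Function.Surjective ((stdMap m).app d) := by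
  intro s
  exact ⟨SSet.stdSimplex.objEquiv.symm
      (SimplexCategory.Hom.mk ⟨fun i => s.obj i, fun _ _ h => leOfHom (s.map (homOfLE h))⟩),
    nerve.ext_of_isThin rfl⟩

/-- The chain of all vertices of a simplex. -/
abbrev verts {E : Type} [PartialOrder E] {d : SimplexCategoryᵒᵖ}
    (s : (CategoryTheory.nerve E).obj d) : NonemptyFiniteChains E :=
  NonemptyFiniteChains.orderHomMap (hom s) (top d.unop.len)

/-- The chart of the simplex. -/
def stdChart (m : ℕ) : Chart (Δ[m] : SSet.{0}) (Fin (m + 1)) (NonemptyFiniteChains (Fin (m + 1))) where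
  e := stdMap m
  inj := stdMap_injective
  j := id
  j_le _ _ := Iff.rfl
  mem d s := ⟨fun _ => ⟨_, rfl⟩, fun _ => stdMap_surjective d s⟩

/-- The chart of a subcomplex given by a condition on the sets of vertices. -/
def subChart (A : (Δ[m] : SSet.{0}).Subcomplex) (P : Set (NonemptyFiniteChains (Fin (m + 1))))
    (hA : ∀ d x, x ∈ A.obj d ↔ verts ((stdMap m).app d x) ∈ P) :
    Chart (A : SSet.{0}) (Fin (m + 1)) P where
  e := A.ι ≫ stdMap m
  inj d x y h := Subtype.ext (stdMap_injective d h)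
  j := Subtype.val
  j_le _ _ := Iff.rfl
  mem d s := by
    constructor
    · rintro ⟨x, rfl⟩
      exact ⟨⟨_, (hA d x.1).1 x.2⟩, rfl⟩
    · rintro ⟨t, ht⟩
      obtain ⟨x, hx⟩ := stdMap_surjective d s
      refine ⟨⟨x, (hA d x).2 ?_⟩, hx⟩
      rw [verts, hx, ← ht]
      exact t.2

/-- The chart of the nerve of a poset. -/
def idChart (E : Type) [PartialOrder E] :
    Chart (CategoryTheory.nerve E) E (NonemptyFiniteChains E) where
  e := 𝟙 _
  inj _ _ _ h := h
  j := id
  j_le _ _ := Iff.rfl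
  mem d s := ⟨fun _ => ⟨_, rfl⟩, fun _ => ⟨s, rfl⟩⟩

/-- The chains in a set. -/
def chainsIn {E : Type} [PartialOrder E] (P : Set E) : Set (NonemptyFiniteChains E) :=
  {c | ∀ a ∈ c.finset, a ∈ P}

/-- The chart of the nerve of a set in a poset. -/
def setChart {E : Type} [PartialOrder E] (P : Set E) :
    Chart (CategoryTheory.nerve P) E (chainsIn P) where
  e := CategoryTheory.nerveMap (setVal P).monotone.functor
  inj d x y h := nerve.ext_of_isThin (funext fun i => Subtype.ext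
    (DFunLike.congr_fun (congrArg (fun s => hom s) h) (ULift.up i)))
  j := Subtype.val
  j_le _ _ := Iff.rfl
  mem d s := by
    constructor
    · rintro ⟨x, rfl⟩
      refine ⟨⟨_, fun a ha => ?_⟩, rfl⟩
      obtain ⟨i, -, rfl⟩ := (mem_image _ _ _).1 ha
      exact (x.obj i.down).2
    · rintro ⟨⟨t, ht'⟩, ht⟩
      have h : ∀ i, hom s i ∈ P := fun i => ht' _ (by
        show hom s i ∈ t.finset
        rw [show t = _ from ht, mem_image]
        exact ⟨i, Finset.mem_univ _, rfl⟩)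
      exact ⟨simplex ⟨fun i => ⟨hom s i, h i⟩, (hom s).monotone⟩, nerve.ext_of_isThin rfl⟩

theorem isDwyer_chainsIn {E : Type} [PartialOrder E] (P : Set E) : IsDwyer (chainsIn P) := by
  classical
  refine ⟨fun a ha b hb x hx => ha x (hb hx), ?_⟩
  rintro w ⟨a, ha, haw⟩
  refine ⟨⟨w.finset.filter (· ∈ P), ?_, ?_⟩, ⟨?_, ?_⟩, ?_⟩
  · obtain ⟨x, hx⟩ := a.nonempty
    exact ⟨x, Finset.mem_filter.2 ⟨haw hx, ha x hx⟩⟩
  · exact fun x y => w.comparable ⟨x.1, (Finset.mem_filter.1 x.2).1⟩ ⟨y.1, (Finset.mem_filter.1 y.2).1⟩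
  · exact fun x hx => (Finset.mem_filter.1 hx).2
  · exact fun x hx => (Finset.mem_filter.1 hx).1
  · rintro b ⟨hb, hbw⟩ x hx
    exact Finset.mem_filter.2 ⟨hbw hx, hb x hx⟩

theorem sd2_subcomplex (A : (Δ[m] : SSet.{0}).Subcomplex)
    (P : Set (NonemptyFiniteChains (Fin (m + 1))))
    (hA : ∀ d x, x ∈ A.obj d ↔ verts ((stdMap m).app d x) ∈ P) :
    Nonempty (Arrow.mk ((SSet.sd.{0} ⋙ SSet.sd.{0}).map A.ι) ≅
      Arrow.mk (CategoryTheory.nerveMap (setVal (chainsIn P)).monotone.functor)) := by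
  have h1 := (subChart A P hA).sdMap_naturality (stdChart m) A.ι OrderHom.id (setVal P) rfl
    fun t => by
      ext a
      simp [subChart, stdChart, setVal]
      rfl
  have h2 := (setChart P).sdMap_naturality (idChart _)
    (CategoryTheory.nerveMap (setVal P).monotone.functor) OrderHom.id (setVal (chainsIn P)) rfl
    fun t => by
      ext a
      simp [setChart, idChart, setVal]
      rfl
  refine ⟨Arrow.isoMk' _ _ (SSet.sd.mapIso (subChart A P hA).sdIso ≪≫ (setChart P).sdIso)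
    (SSet.sd.mapIso (stdChart m).sdIso ≪≫ (idChart _).sdIso) ?_⟩
  simp only [Iso.trans_hom, Functor.mapIso_hom, Category.assoc, Functor.comp_map, Chart.sdIso,
    asIso_hom]
  rw [← h2, ← Functor.map_comp_assoc, ← h1, Functor.map_comp_assoc]

end Vale.Agent.P213.Sd

namespace Vale.Agent.P213

open Sd

theorem sd2_horn (m : ℕ) (i : Fin (m + 2)) : ∃ A : Set (P2 (m + 1)),
    IsDwyer A ∧ Nonempty (Arrow.mk ((SSet.sd.{0} ⋙ SSet.sd.{0}).map Λ[m + 1, i].ι) ≅
      Arrow.mk (CategoryTheory.nerveMap (setVal A).monotone.functor)) := by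
  refine ⟨_, isDwyer_chainsIn {S | ∃ j, j ≠ i ∧ j ∉ S.finset}, sd2_subcomplex _ _ fun d x => ?_⟩
  obtain ⟨⟨d⟩⟩ := d
  rw [SSet.mem_horn_iff_notMem_range]
  refine exists_congr fun j => ?_
  rw [exists_prop, Set.mem_range]
  refine and_congr_right fun _ => not_congr ?_
  rw [mem_image]
  exact ⟨fun ⟨k, hk⟩ => ⟨ULift.up k, Finset.mem_univ _, hk⟩, fun ⟨k, _, hk⟩ => ⟨k.down, hk⟩⟩

theorem sd2_boundary (m : ℕ) : ∃ A : Set (P2 m),
    IsDwyer A ∧ Nonempty (Arrow.mk ((SSet.sd.{0} ⋙ SSet.sd.{0}).map ∂Δ[m].ι) ≅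
      Arrow.mk (CategoryTheory.nerveMap (setVal A).monotone.functor)) := by
  refine ⟨_, isDwyer_chainsIn {S | ∃ j, j ∉ S.finset}, sd2_subcomplex _ _ fun d x => ?_⟩
  obtain ⟨⟨d⟩⟩ := d
  rw [SSet.mem_boundary_iff_notMem_range]
  refine exists_congr fun j => ?_
  rw [Set.mem_range]
  refine not_congr ?_
  rw [mem_image]
  exact ⟨fun ⟨k, hk⟩ => ⟨ULift.up k, Finset.mem_univ _, hk⟩, fun ⟨k, _, hk⟩ => ⟨k.down, hk⟩⟩

end Vale.Agent.P213
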