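import Vale.Agent.P213.Cat.Adj
import Vale.Agent.P213.Step.Main
import Vale.Agent.P213.Collage.Nerve
import Vale.Agent.P213.KQ.Closure

/-!
# P213, unit: the nerve of a finite poset is weakly equivalent to the nerve of its `O(E)`

Induction over unions of cosieves: a poset with a bottom has contractible nerve on both sides.
-/

open CategoryTheory Limits MonoidalCategory CartesianMonoidalCategory Simplicial Opposite

noncomputable section

namespace Vale.Agent.P213

variable {n : ℕ∞}

/-- The empty omega-category. -/
def emptyCat : OmegaCat where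
  Cell := Empty
  src _ x := x.elim
  tgt _ x := x.elim
  comp _ x _ := x
  src_src _ x := x.elim
  tgt_src _ x := x.elim
  src_tgt _ x := x.elim
  tgt_tgt _ x := x.elim
  src_src_lo _ x := x.elim
  src_tgt_lo _ x := x.elim
  tgt_src_lo _ x := x.elim
  tgt_tgt_lo _ x := x.elim
  src_src_hi _ x := x.elim
  src_tgt_hi _ x := x.elim
  tgt_src_hi _ x := x.elim
  tgt_tgt_hi _ x := x.elim
  finite_dim x := x.elim
  src_comp _ x := x.elim
  tgt_comp _ x := x.elim
  src_comp_hi _ x := x.elim
  tgt_comp_hi _ x := x.elim
  unit_left _ x := x.elim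
  unit_right _ x := x.elim
  assoc _ x := x.elim
  interchange _ x := x.elim

/-- A constant functor. -/
def constHom (X Y : OmegaCat) (p : Y.Cell) (hp : ∀ i, Y.src i p = p ∧ Y.tgt i p = p) :
    X ⟶ Y where
  toFun _ := p
  map_src i _ := (hp i).1.symm
  map_tgt i _ := (hp i).2.symm
  map_comp i _ _ _ := by
    have := Y.unit_left i p
    rw [(hp i).1] at this
    exact this.symm

theorem table_fin_one (x y : Table (Fin 1)) : x = y := by
  refine Table.ext' fun q => ?_
  rcases q with _ | q
  · rw [x.neg_zero, y.neg_zero, x.pos_zero, y.pos_zero, Subsingleton.elim x.vs y.vs,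
      Subsingleton.elim x.vt y.vt]
    exact ⟨rfl, rfl⟩
  · constructor <;> refine Finsupp.ext fun c => ?_ <;>
    exact absurd (c.2 (show (0 : Fin (q + 2)) < Fin.last (q + 1) from Fin.last_pos))
      (by simp [Subsingleton.elim (c.1 0) (c.1 (Fin.last (q + 1)))])

theorem vertex_src (v : Fin 1) (i : ℕ) :
    Table.src i (Table.point v) = Table.point v ∧ Table.tgt i (Table.point v) = Table.point v :=
  ⟨table_fin_one _ _, table_fin_one _ _⟩

variable {E : Type} [PartialOrder E]

/-- The unit at the nerve of a poset. -/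
def unitO (n : ℕ∞) (E : Type) [PartialOrder E] :
    CategoryTheory.nerve E ⟶ (nerveN n).obj (catO n E) :=
  (cAdj n).unit.app (CategoryTheory.nerve E)

theorem unitO_natural {F : Type} [PartialOrder F] (f : E →o F) :
    CategoryTheory.nerveMap f.monotone.functor ≫ unitO n F =
      unitO n E ≫ (nerveN n).map (catOMap n f) :=
  (cAdj n).unit.naturality _

theorem isIso_of_bijective {X Y : SSet.{0}} (f : X ⟶ Y)
    (h : ∀ d, Function.Bijective (f.app d)) : IsIso f := by
  have : ∀ d, IsIso (f.app d) := fun d => (isIso_iff_bijective _).2 (h d)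
  exact NatIso.isIso_of_isIso_app f

theorem catO_cell_isEmpty [IsEmpty E] (x : (catO n E).obj.Cell) : False := by
  let η : CategoryTheory.nerve E ⟶
      (nerveN n).obj ⟨emptyCat, fun _ _ x => (Empty.elim x : False).elim⟩ :=
    { app := fun d => ↾fun s => isEmptyElim ((monoOf (m := d.unop) s) 0)
      naturality := fun d d' f => by
        ext s
        exact isEmptyElim ((monoOf (m := d.unop) s) 0) }
  exact Empty.elim (((cEquiv n _ _).symm η).hom.toFun x)

theorem unitO_weakEq_of_isEmpty [IsEmpty E] : weakEq (unitO n E) := by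
  have : IsIso (unitO n E) := isIso_of_bijective _ fun d =>
    ⟨fun s => isEmptyElim ((monoOf (m := d.unop) s) 0),
      fun σ => (catO_cell_isEmpty (σ.down.toFun (Table.point 0))).elim⟩
  exact KQ.weakEq_of_isIso _

/-- The simplex at the only point. -/
def pointSimplex (v : E) (m : SimplexCategory) : (CategoryTheory.nerve E).obj (op m) :=
  ofMono ⟨fun _ => v, fun _ _ _ => le_rfl⟩

theorem catO_cell_unique [Unique E] (x y : (catO n E).obj.Cell) : x = y := by
  let v : E := default
  let p := (catι n (pointSimplex v ⦋0⦌)).toFun (Table.point 0)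
  have hp : ∀ i, (catO n E).obj.src i p = p ∧ (catO n E).obj.tgt i p = p := fun i =>
    ⟨((catι n (pointSimplex v ⦋0⦌)).map_src i _).symm.trans
        (congrArg (catι n (pointSimplex v ⦋0⦌)).toFun (table_fin_one _ _)),
      ((catι n (pointSimplex v ⦋0⦌)).map_tgt i _).symm.trans
        (congrArg (catι n (pointSimplex v ⦋0⦌)).toFun (table_fin_one _ _))⟩
  have h : 𝟙 (catO n E).obj = constHom _ _ p hp := by
    refine catO_hom_ext (catO n E).property fun m s => ?_
    refine OmegaCat.Hom.ext (funext fun (z : Table (Fin (m.len + 1))) => ?_)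
    let φ : m ⟶ (⦋0⦌ : SimplexCategory) := SimplexCategory.Hom.mk ⟨fun _ => 0, fun _ _ _ => le_rfl⟩
    have hs : s = (CategoryTheory.nerve E).map φ.op (pointSimplex v ⦋0⦌) :=
      simplex_ext fun k => Subsingleton.elim _ _
    show (catι n s).toFun z = p
    rw [hs, ← catι_natural]
    exact congrArg (catι n (pointSimplex v ⦋0⦌)).toFun (table_fin_one _ _)
  have hx := congrArg (fun u : (catO n E).obj ⟶ (catO n E).obj => u.toFun x) h
  have hy := congrArg (fun u : (catO n E).obj ⟶ (catO n E).obj => u.toFun y) h
  exact hx.trans hy.symm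

theorem unitO_weakEq_of_unique [Unique E] : weakEq (unitO n E) := by
  have : IsIso (unitO n E) := isIso_of_bijective _ fun d =>
    ⟨fun s t _ => simplex_ext (m := d.unop) fun k => Subsingleton.elim _ _,
      fun σ => ⟨pointSimplex default d.unop,
        ULift.ext _ _ (OmegaCat.Hom.ext (funext fun z => catO_cell_unique _ _))⟩⟩
  exact KQ.weakEq_of_isIso _

/-- Retraction of the nerve onto the bottom. -/
def botContract (b : E) (hb : ∀ y, b ≤ y) :
    (CategoryTheory.nerve E) ⊗ (Δ[1] : SSet.{0}) ⟶ CategoryTheory.nerve E where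
  app d := ↾fun x => ofMono (m := d.unop)
    ⟨fun k => if SSet.stdSimplex.asOrderHom x.2 k = 0 then b else monoOf (m := d.unop) x.1 k,
      fun i j h => by
        dsimp only
        split_ifs with h1 h2 h2
        · exact le_rfl
        · exact hb _
        · exact absurd (le_antisymm ((SSet.stdSimplex.asOrderHom x.2).monotone h |>.trans h2.le)
            (Fin.zero_le _)) h1
        · exact (monoOf (m := d.unop) x.1).monotone h⟩
  naturality d d' f := by
    refine ConcreteCategory.hom_ext _ _ fun x => ?_
    exact simplex_ext (m := d'.unop) fun k => rfl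

theorem weakEq_nerve_bot (b : E) (hb : ∀ y, b ≤ y) :
    weakEq (CategoryTheory.nerveMap (setVal ({b} : Set E)).monotone.functor) := by
  let r : E →o ↥({b} : Set E) := ⟨fun _ => ⟨b, rfl⟩, fun _ _ _ => le_rfl⟩
  refine KQ.weakEq_of_inverse _ (CategoryTheory.nerveMap r.monotone.functor) ?_ ?_
  · refine congrArg KQ.cls (NatTrans.ext (funext fun d => ?_))
    refine ConcreteCategory.hom_ext _ _ fun s => ?_
    exact simplex_ext (m := d.unop) fun k => Subsingleton.elim _ _
  · refine Quot.sound (KQ.htpc_iff.2 ⟨botContract b hb, ?_, ?_⟩)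
    · refine NatTrans.ext (funext fun d => ?_)
      refine ConcreteCategory.hom_ext _ _ fun s => ?_
      exact simplex_ext (m := d.unop) fun k => rfl
    · refine NatTrans.ext (funext fun d => ?_)
      refine ConcreteCategory.hom_ext _ _ fun s => ?_
      exact simplex_ext (m := d.unop) fun k => rfl

/-- The nerve of a union of cosieves, in posets. -/
theorem nerve_cosieves_poset (P Q : Set E) (hP : IsUpperSet P) (hQ : IsUpperSet Q)
    (hPQ : P ∪ Q = Set.univ) :
    IsPushout
      (CategoryTheory.nerveMap
        (setIncl (Set.inter_subset_left : P ∩ Q ⊆ P)).monotone.functor)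
      (CategoryTheory.nerveMap
        (setIncl (Set.inter_subset_right : P ∩ Q ⊆ Q)).monotone.functor)
      (CategoryTheory.nerveMap (setVal P).monotone.functor)
      (CategoryTheory.nerveMap (setVal Q).monotone.functor) := by
  refine IsPushout.of_forall_isPushout_app fun d => ?_
  have inj : ∀ {A B : Type} [PartialOrder A] [PartialOrder B] (f : A →o B),
      Function.Injective f →
      Function.Injective ((CategoryTheory.nerveMap f.monotone.functor).app d) :=
    fun f hf s t e => simplex_ext (m := d.unop) fun k =>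
      hf (congrArg (fun u => monoOf (m := d.unop) u k) e)
  refine isPushout_types _ _ _ _ ?_ (inj (setVal P) Subtype.val_injective)
    (inj (setIncl (Set.inter_subset_right : P ∩ Q ⊆ Q)) (Set.inclusion_injective Set.inter_subset_right)) ?_ ?_ ?_
  · refine ConcreteCategory.hom_ext _ _ fun s => ?_
    exact simplex_ext (m := d.unop) fun k => rfl
  · intro s
    let f := monoOf (m := d.unop) s
    have h0 : f 0 ∈ P ∪ Q := hPQ ▸ Set.mem_univ _
    rcases h0 with h | h
    · exact .inl ⟨ofMono (m := d.unop) ⟨fun k => ⟨f k, hP (f.monotone (Fin.zero_le k)) h⟩,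
        fun _ _ hk => f.monotone hk⟩, simplex_ext (m := d.unop) fun k => rfl⟩
    · exact .inr ⟨ofMono (m := d.unop) ⟨fun k => ⟨f k, hQ (f.monotone (Fin.zero_le k)) h⟩,
        fun _ _ hk => f.monotone hk⟩, simplex_ext (m := d.unop) fun k => rfl⟩
  · intro s t e
    let g := monoOf (m := d.unop) t
    have he : ∀ k, ((monoOf (m := d.unop) s k : E) = (g k : E)) := fun k =>
      congrArg (fun u => monoOf (m := d.unop) u k) e
    exact ⟨ofMono (m := d.unop) ⟨fun k => ⟨(g k : E),
        he k ▸ (monoOf (m := d.unop) s k).2, (g k).2⟩, fun _ _ hk => g.monotone hk⟩,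
      simplex_ext (m := d.unop) fun k => rfl⟩
  · intro s t _ _ e
    exact inj (setVal Q) Subtype.val_injective e

theorem nerveN_mono_incl (hn : 1 ≤ n) (P Q : Set E) (hP : IsUpperSet P) (hQ : IsUpperSet Q) :
    Mono ((nerveN n).map (catOMap n (setIncl (Set.inter_subset_right : P ∩ Q ⊆ Q)))) := by
  classical
  let κ : E →o Fin 3 := ⟨fun e => if e ∈ P ∩ Q then 1 else 0, fun a b hab => by
    by_cases h : a ∈ P ∩ Q
    · simp [h, (hP.inter hQ) hab h]
    · simp [h]⟩
  have hS : ∀ e, e ∈ P ∩ Q ↔ κ e = 1 := fun e => by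
    show e ∈ P ∩ Q ↔ (if e ∈ P ∩ Q then (1 : Fin 3) else 0) = 1
    by_cases h : e ∈ P ∩ Q <;> simp [h]
  have hf := fullBij_catO (n := n) (S := P ∩ Q) (κ := κ) hS hn
  have hm : Mono ((nerveN n).map (catOMap n (setVal (P ∩ Q)))) := by
    have : ∀ d, Mono (((nerveN n).map (catOMap n (setVal (P ∩ Q)))).app d) := fun d =>
      (mono_iff_injective _).2 fun u v e => ULift.ext _ _
        (hf.cancel (fun x => allMid hn κ (fun e he => (hS e).1 he) _)
          (fun x => allMid hn κ (fun e he => (hS e).1 he) _) (congrArg ULift.down e))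
    exact NatTrans.mono_of_mono_app _
  have e : catOMap n (setVal (P ∩ Q)) =
      catOMap n (setIncl (Set.inter_subset_right : P ∩ Q ⊆ Q)) ≫ catOMap n (setVal Q) := by
    show (cN n).map _ = (cN n).map _ ≫ (cN n).map _
    rw [← Functor.map_comp]
    rfl
  rw [e, Functor.map_comp] at hm
  exact @mono_of_mono _ _ _ _ _ _ _ hm

/-- The unit at the nerve of a finite poset is a weak equivalence. -/
theorem unitO_weakEq (hn : 1 ≤ n) {c : CylData} (T : TransData c) (E : Type) [PartialOrder E]
    [Finite E] : weakEq (unitO n E) := by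
  have := hasColimits_nCat n
  suffices key : ∀ k (E : Type) [PartialOrder E] [Finite E], Nat.card E = k →
      weakEq (unitO n E) from key _ E rfl
  intro k
  induction k using Nat.strong_induction_on with
  | _ k ih =>
    intro E _ _ hk
    rcases isEmpty_or_nonempty E with hE | hE
    · exact unitO_weakEq_of_isEmpty
    obtain ⟨b, -, hb⟩ := (Set.toFinite (Set.univ : Set E)).exists_minimal Set.univ_nonempty
    have hbot : ∀ a : E, (∀ y, a ≤ y) → weakEq (unitO n E) := by
      intro a ha
      have hst := bot_stable_gen (cAdj n) T a ha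
      have hW : W n (catOMap n (setVal ({a} : Set E))) :=
        (hst (𝟙 _) (catOMap n (setVal ({a} : Set E))) (𝟙 _) (IsPushout.of_id_fst)).1
      refine KQ.weakEq_of_comp_left (weakEq_nerve_bot a ha) ?_
      rw [unitO_natural]
      exact KQ.weakEq_comp unitO_weakEq_of_unique hW
    by_cases hmin : ∀ y, b ≤ y
    · exact hbot b hmin
    obtain ⟨y, hy⟩ := not_forall.1 hmin
    let P : Set E := {z | b ≤ z}
    let Q : Set E := {z | z ≠ b}
    have hP : IsUpperSet P := fun u v huv hu => le_trans (show b ≤ u from hu) huv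
    have hQ : IsUpperSet Q := fun u v huv hu hv =>
      hu (le_antisymm (hv ▸ huv) (hb trivial (hv ▸ huv)))
    have hPQ : P ∪ Q = Set.univ := Set.eq_univ_of_forall fun z =>
      (eq_or_ne z b).imp (fun h => h.ge) id
    have small : ∀ (S : Set E) (z : E), z ∉ S → weakEq (unitO n S) := fun S z hz => by
      refine ih (Nat.card S) ?_ S rfl
      rw [← hk, ← Nat.card_univ (α := E)]
      exact Set.ncard_lt_ncard (Set.ssubset_univ_iff.2 fun h => hz (h ▸ Set.mem_univ z))
    have h₁ := nerve_cosieves_poset P Q hP hQ hPQ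
    have h₂ := nerve_cosieves n hn P Q hP hQ hPQ
    have : Mono (CategoryTheory.nerveMap
        (setIncl (Set.inter_subset_right : P ∩ Q ⊆ Q)).monotone.functor) := by
      have : ∀ d, Mono ((CategoryTheory.nerveMap
          (setIncl (Set.inter_subset_right : P ∩ Q ⊆ Q)).monotone.functor).app d) := fun d =>
        (mono_iff_injective _).2 fun s t e => simplex_ext (m := d.unop) fun k =>
          Set.inclusion_injective Set.inter_subset_right
            (congrArg (fun u : (CategoryTheory.nerve ↥Q).obj (op d.unop) => monoOf u k) e)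
      exact NatTrans.mono_of_mono_app _
    have := nerveN_mono_incl (n := n) hn P Q hP hQ
    exact KQ.weakEq_glue h₁ h₂ (unitO_natural _) (unitO_natural _) (unitO_natural _)
      (unitO_natural _) (small _ b fun h => h.2 rfl) (small Q b fun h => h rfl)
      (small P y hy)

/-- The unit of `c_n ⊣ N_n` at the nerve of a finite poset is a weak equivalence. -/
theorem posetUnit_weakEq (hn : 1 ≤ n) {c : CylData} (T : TransData c) (E : Type) [PartialOrder E]
    [Finite E] : weakEq ((cAdj n).unit.app (CategoryTheory.nerve E)) :=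
  unitO_weakEq hn T E

end Vale.Agent.P213
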