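import Mathlib

/-!
# P213, Sd: the subdivision of a simplicial complex

If a simplicial set `X` is the set of simplices of the nerve of `E` whose images belong to a family
`T` of chains, its subdivision is the nerve of `T`. The proof shows that the evident map
`X ⟶ ex (nerve T)` is universal.
-/

open CategoryTheory Simplicial Opposite PartialOrder

noncomputable section

namespace Vale.Agent.P213.Sd

/-- The linear order of a simplex. -/
abbrev L (k : ℕ) : Type := ULift.{0} (Fin (k + 1))

variable {E F T T' : Type} [PartialOrder E] [PartialOrder F] [PartialOrder T] [PartialOrder T']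

/-- A simplex of a nerve as a monotone map. -/
def hom {d : SimplexCategoryᵒᵖ} (s : (CategoryTheory.nerve E).obj d) : L d.unop.len →o E :=
  ⟨fun i => s.obj i.down, fun _ _ h => leOfHom (s.map (homOfLE h))⟩

/-- The chain of all elements of a simplex. -/
def top (k : ℕ) : NonemptyFiniteChains (L k) where
  finset := Finset.univ
  nonempty := Finset.univ_nonempty
  comparable a b := le_total a.1 b.1

theorem le_top' {k : ℕ} (S : NonemptyFiniteChains (L k)) : S ≤ top k :=
  Finset.subset_univ _

theorem mem_image {k : ℕ} (f : L k →o E) (S : NonemptyFiniteChains (L k)) (a : E) :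
    a ∈ (NonemptyFiniteChains.orderHomMap f S).finset ↔ ∃ i ∈ S.finset, f i = a :=
  NonemptyFiniteChains.mem_map_iff S f a

theorem image_comp {G : Type} [PartialOrder G] (p : E →o F) (q : F →o G)
    (S : NonemptyFiniteChains E) :
    NonemptyFiniteChains.orderHomMap (q.comp p) S =
      NonemptyFiniteChains.orderHomMap q (NonemptyFiniteChains.orderHomMap p S) := by
  ext a
  simp

/-- Every chain is the image of a strictly increasing sequence. -/
theorem exists_enum (c : NonemptyFiniteChains E) : ∃ (k : ℕ) (y : L k →o E),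
    Function.Injective y ∧ (∀ i i', y i ≤ y i' → i ≤ i') ∧
      NonemptyFiniteChains.orderHomMap y (top k) = c := by
  classical
  obtain ⟨k, hk⟩ : ∃ k, Fintype.card c.finset = k + 1 :=
    ⟨Fintype.card c.finset - 1, by
      have := Finset.card_pos.2 c.nonempty
      simp [Fintype.card_coe]⟩
  let _ : LinearOrder c.finset :=
    { (inferInstance : PartialOrder c.finset) with
      le_total := c.comparable
      toDecidableLE := Classical.decRel _ }
  let e : Fin (k + 1) ≃o c.finset := monoEquivOfFin _ hk
  refine ⟨k, ⟨fun i => (e i.down).1, fun _ _ h => e.monotone h⟩, ?_, ?_, ?_⟩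
  · intro i i' h
    exact ULift.ext _ _ (e.injective (Subtype.ext h))
  · intro i i' h
    exact e.le_iff_le.1 h
  · ext a
    rw [mem_image]
    constructor
    · rintro ⟨i, -, rfl⟩
      exact (e i.down).2
    · intro ha
      exact ⟨ULift.up (e.symm ⟨a, ha⟩), Finset.mem_univ _,
        congrArg Subtype.val (e.apply_symm_apply _)⟩

/-- A monotone map of linear orders as a morphism of `SimplexCategory`. -/
def sHom {k l : ℕ} (φ : L k →o L l) : SimplexCategory.mk k ⟶ SimplexCategory.mk l :=
  SimplexCategory.Hom.mk ⟨fun i => (φ (ULift.up i)).down, fun _ _ h => φ.monotone h⟩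

/-- A simplex of the nerve. -/
def simplex {d : SimplexCategoryᵒᵖ} (f : L d.unop.len →o E) : (CategoryTheory.nerve E).obj d :=
  (f.comp ⟨ULift.up, fun _ _ h => h⟩).monotone.functor

theorem hom_simplex {d : SimplexCategoryᵒᵖ} (f : L d.unop.len →o E) : hom (simplex (d := d) f) = f :=
  rfl

theorem simplex_hom {d : SimplexCategoryᵒᵖ} (s : (CategoryTheory.nerve E).obj d) :
    simplex (hom s) = s :=
  nerve.ext_of_isThin rfl

/-- Postcomposition of a simplex. -/
def push {d : SimplexCategoryᵒᵖ} (f : E →o F) (s : (CategoryTheory.nerve E).obj d) :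
    (CategoryTheory.nerve F).obj d :=
  (CategoryTheory.nerveMap f.monotone.functor).app d s

theorem hom_push {d : SimplexCategoryᵒᵖ} (f : E →o F) (s : (CategoryTheory.nerve E).obj d) :
    hom (push f s) = f.comp (hom s) := rfl

/-- `X` is the complex of the chains in the range of `j` inside the nerve of `E`. -/
structure Chart (X : SSet.{0}) (E T : Type) [PartialOrder E] [PartialOrder T] where
  /-- The inclusion. -/
  e : X ⟶ CategoryTheory.nerve E
  inj : ∀ d, Function.Injective (e.app d)
  /-- The chains of the complex. -/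
  j : T → NonemptyFiniteChains E
  j_le : ∀ s t, j s ≤ j t ↔ s ≤ t
  mem : ∀ d (s : (CategoryTheory.nerve E).obj d), (∃ x, e.app d x = s) ↔
    ∃ t, j t = NonemptyFiniteChains.orderHomMap (hom s) (top d.unop.len)

namespace Chart

variable {X X' : SSet.{0}} (C : Chart X E T)

theorem hom_map {d d' : SimplexCategoryᵒᵖ} (φ : d ⟶ d') (x : X.obj d) :
    hom (C.e.app d' (X.map φ x)) = (hom (C.e.app d x)).comp
      ⟨fun i => ULift.up (φ.unop.toOrderHom i.down), fun _ _ h => φ.unop.toOrderHom.monotone h⟩ := by
  rw [NatTrans.naturality_apply]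
  rfl

theorem j_inj {s t : T} (h : C.j s = C.j t) : s = t :=
  le_antisymm ((C.j_le s t).1 h.le) ((C.j_le t s).1 h.ge)

theorem exists_j {d : SimplexCategoryᵒᵖ} (x : X.obj d) (S : NonemptyFiniteChains (L d.unop.len)) :
    ∃ t, C.j t = NonemptyFiniteChains.orderHomMap (hom (C.e.app d x)) S := by
  obtain ⟨l, φ, -, -, hS⟩ := exists_enum S
  obtain ⟨t, ht⟩ := (C.mem _ _).1 ⟨X.map (sHom φ).op x, rfl⟩
  refine ⟨t, ht.trans ?_⟩
  rw [C.hom_map, image_comp]
  exact congrArg _ hS

/-- The chain of the image of a chain of a simplex. -/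
def img {d : SimplexCategoryᵒᵖ} (x : X.obj d) : NonemptyFiniteChains (L d.unop.len) →o T where
  toFun S := (C.exists_j x S).choose
  monotone' S S' h := (C.j_le _ _).1 (by
    rw [(C.exists_j x S).choose_spec, (C.exists_j x S').choose_spec]
    exact (NonemptyFiniteChains.orderHomMap _).monotone h)

theorem j_img {d : SimplexCategoryᵒᵖ} (x : X.obj d) (S : NonemptyFiniteChains (L d.unop.len)) :
    C.j (C.img x S) = NonemptyFiniteChains.orderHomMap (hom (C.e.app d x)) S :=
  (C.exists_j x S).choose_spec

theorem exists_rep (t : T) : ∃ (k : ℕ) (y : X.obj (op ⦋k⦌)),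
    (∀ i i', hom (C.e.app _ y) i ≤ hom (C.e.app _ y) i' → i ≤ i') ∧ C.img y (top k) = t := by
  obtain ⟨k, y, -, hy, htop⟩ := exists_enum (C.j t)
  obtain ⟨x, hx⟩ := (C.mem (op ⦋k⦌) (simplex (d := op ⦋k⦌) y)).2 ⟨t, by
    rw [hom_simplex]; exact htop.symm⟩
  have e : hom (C.e.app (op ⦋k⦌) x) = y := by rw [hx, hom_simplex]
  refine ⟨k, x, fun i i' h => hy i i' (by rwa [e] at h), C.j_inj ?_⟩
  rw [C.j_img, e]
  exact htop

/-- The pullback of a sequence of chains to the simplex of its largest member. -/
theorem exists_lift {k r : ℕ} (y : X.obj (op ⦋k⦌))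
    (hy : ∀ i i', hom (C.e.app _ y) i ≤ hom (C.e.app _ y) i' → i ≤ i') (s : L r →o T)
    (hs : ∀ i, s i ≤ C.img y (top k)) :
    ∃ S : L r →o NonemptyFiniteChains (L k), ∀ i, C.img y (S i) = s i := by
  classical
  have hm : ∀ i, ∀ a ∈ (C.j (s i)).finset, ∃ p, hom (C.e.app _ y) p = a := fun i a ha => by
    have h := (C.j_le _ _).2 (hs i) ha
    rw [C.j_img, mem_image] at h
    obtain ⟨p, -, hp⟩ := h
    exact ⟨p, hp⟩
  refine ⟨⟨fun i =>
    { finset := Finset.univ.filter fun p => hom (C.e.app _ y) p ∈ (C.j (s i)).finset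
      nonempty := by
        obtain ⟨a, ha⟩ := (C.j (s i)).nonempty
        obtain ⟨p, hp⟩ := hm i a ha
        exact ⟨p, by simp [hp, ha]⟩
      comparable := fun a b => le_total a.1 b.1 }, fun i i' h p hp => ?_⟩, fun i => C.j_inj ?_⟩
  · simp only [Finset.mem_filter, Finset.mem_univ, true_and] at hp ⊢
    exact (C.j_le _ _).2 (s.monotone h) hp
  · rw [C.j_img]
    ext a
    rw [mem_image]
    constructor
    · rintro ⟨p, hp, rfl⟩
      exact (Finset.mem_filter.1 hp).2
    · intro ha
      obtain ⟨p, hp⟩ := hm i a ha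
      exact ⟨p, Finset.mem_filter.2 ⟨Finset.mem_univ _, hp ▸ ha⟩, hp⟩

/-- The largest member of a sequence. -/
abbrev last {d : SimplexCategoryᵒᵖ} (s : L d.unop.len →o T) : T := s (ULift.up (Fin.last _))

theorem le_last {d : SimplexCategoryᵒᵖ} (s : L d.unop.len →o T) (i : L d.unop.len) :
    s i ≤ last s :=
  s.monotone (Fin.le_last _)

/-- Every chain of chains comes from one simplex. -/
theorem exists_src {d : SimplexCategoryᵒᵖ} (s : (CategoryTheory.nerve T).obj d) :
    ∃ (k : ℕ) (y : X.obj (op ⦋k⦌)) (S : (CategoryTheory.nerve (NonemptyFiniteChains (L k))).obj d),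
      (∀ i i', hom (C.e.app _ y) i ≤ hom (C.e.app _ y) i' → i ≤ i') ∧ push (C.img y) S = s := by
  obtain ⟨k, y, hy, htop⟩ := C.exists_rep (last (hom s))
  obtain ⟨S, hS⟩ := C.exists_lift y hy (hom s) fun i => (le_last _ i).trans_eq htop.symm
  refine ⟨k, y, simplex S, hy, ?_⟩
  rw [← simplex_hom s]
  exact nerve.ext_of_isThin (funext fun i => hS (ULift.up i))

/-- The map to `ex`. -/
def unit : X ⟶ SSet.ex.obj (CategoryTheory.nerve T) where
  app d := ↾fun x => ULift.up (CategoryTheory.nerveMap (C.img x).monotone.functor)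
  naturality d d' φ := by
    ext x
    refine congrArg ULift.up ?_
    refine NatTrans.ext (funext fun m => ?_)
    ext S i
    refine C.j_inj ?_
    refine (C.j_img (X.map φ x) _).trans ((congrArg (fun f => NonemptyFiniteChains.orderHomMap f _)
      (C.hom_map φ x)).trans ?_)
    refine (image_comp _ _ _).trans (Eq.trans ?_ (C.j_img x _).symm)
    rfl

/-- The value of a map to `ex Y` at a simplex and a chain of chains. -/
abbrev ev {Y : SSet.{0}} (g : X ⟶ SSet.ex.obj Y) {k : ℕ} (y : X.obj (op ⦋k⦌))
    {d : SimplexCategoryᵒᵖ} (S : (CategoryTheory.nerve (NonemptyFiniteChains (L k))).obj d) :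
    Y.obj d :=
  (g.app (op ⦋k⦌) y).down.app d S

theorem ev_map {Y : SSet.{0}} (g : X ⟶ SSet.ex.obj Y) {k l : ℕ} (φ : L l →o L k)
    (y : X.obj (op ⦋k⦌)) {d : SimplexCategoryᵒᵖ}
    (S : (CategoryTheory.nerve (NonemptyFiniteChains (L l))).obj d) :
    ev g (X.map (sHom φ).op y) S = ev g y (push (NonemptyFiniteChains.orderHomMap φ) S) := by
  simp only [ev]
  rw [NatTrans.naturality_apply g (sHom φ).op y]
  rfl

/-- Equal images give equal values. -/
theorem ev_eq {Y : SSet.{0}} (g : X ⟶ SSet.ex.obj Y) {k l : ℕ} (x : X.obj (op ⦋k⦌))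
    (y : X.obj (op ⦋l⦌)) (hy : ∀ i i', hom (C.e.app _ y) i ≤ hom (C.e.app _ y) i' → i ≤ i')
    {d : SimplexCategoryᵒᵖ} (S : (CategoryTheory.nerve (NonemptyFiniteChains (L k))).obj d)
    (U : (CategoryTheory.nerve (NonemptyFiniteChains (L l))).obj d)
    (h : push (C.img x) S = push (C.img y) U) : ev g x S = ev g y U := by
  classical
  have hi : ∀ i, NonemptyFiniteChains.orderHomMap (hom (C.e.app _ x)) (hom S i) =
      NonemptyFiniteChains.orderHomMap (hom (C.e.app _ y)) (hom U i) := fun i => by
    rw [← C.j_img, ← C.j_img]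
    exact congrArg C.j (DFunLike.congr_fun (congrArg hom h) i)
  have inj : Function.Injective (hom (C.e.app _ y)) := fun p q e =>
    le_antisymm (hy p q e.le) (hy q p e.ge)
  obtain ⟨a, φ, hφ, hφle, htop⟩ := exists_enum (hom S (ULift.up (Fin.last _)))
  have hψ : ∀ p, ∃ q, hom (C.e.app _ y) q = hom (C.e.app _ x) (φ p) := fun p => by
    have hp : φ p ∈ (hom S (ULift.up (Fin.last _))).finset := by
      rw [← htop, mem_image]
      exact ⟨p, Finset.mem_univ _, rfl⟩
    have h1 := (mem_image (hom (C.e.app _ x)) _ _).2 ⟨_, hp, rfl⟩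
    rw [hi, mem_image] at h1
    obtain ⟨q, -, hq⟩ := h1
    exact ⟨q, hq⟩
  choose ψ' hψ' using hψ
  let ψ : L a →o L l := ⟨ψ', fun p p' hp => hy _ _ (by
    rw [hψ', hψ']; exact (hom (C.e.app _ x)).monotone (φ.monotone hp))⟩
  have hxy : X.map (sHom φ).op x = X.map (sHom ψ).op y := by
    refine C.inj _ ?_
    rw [← simplex_hom (C.e.app _ (X.map (sHom φ).op x)),
      ← simplex_hom (C.e.app _ (X.map (sHom ψ).op y)), C.hom_map, C.hom_map]
    exact congrArg simplex (OrderHom.ext _ _ (funext fun p => (hψ' p).symm))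
  let V' : L d.unop.len →o NonemptyFiniteChains (L a) :=
    ⟨fun i =>
      { finset := Finset.univ.filter fun p => φ p ∈ (hom S i).finset
        nonempty := by
          obtain ⟨b, hb⟩ := (hom S i).nonempty
          have hb' : b ∈ (hom S (ULift.up (Fin.last _))).finset :=
            (hom S).monotone (Fin.le_last i.down) hb
          rw [← htop, mem_image] at hb'
          obtain ⟨p, -, rfl⟩ := hb'
          exact ⟨p, by simp [hb]⟩
        comparable := fun p q => le_total p.1 q.1 },
      fun i i' hle p hp => by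
        simp only [Finset.mem_filter, Finset.mem_univ, true_and] at hp ⊢
        exact (hom S).monotone hle hp⟩
  have hV : ∀ i, NonemptyFiniteChains.orderHomMap φ (V' i) = hom S i := fun i => by
    ext b
    rw [mem_image]
    constructor
    · rintro ⟨p, hp, rfl⟩
      exact (Finset.mem_filter.1 hp).2
    · intro hb
      have hb' : b ∈ (hom S (ULift.up (Fin.last _))).finset :=
        (hom S).monotone (Fin.le_last i.down) hb
      rw [← htop, mem_image] at hb'
      obtain ⟨p, -, rfl⟩ := hb'
      exact ⟨p, Finset.mem_filter.2 ⟨Finset.mem_univ _, hb⟩, rfl⟩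
  have hS : push (NonemptyFiniteChains.orderHomMap φ) (simplex V') = S :=
    nerve.ext_of_isThin (funext fun i => hV (ULift.up i))
  have hU : push (NonemptyFiniteChains.orderHomMap ψ) (simplex V') = U := by
    refine nerve.ext_of_isThin (funext fun i => ?_)
    show NonemptyFiniteChains.orderHomMap ψ (V' (ULift.up i)) = hom U (ULift.up i)
    have key := hi (ULift.up i)
    rw [← hV, ← image_comp] at key
    have hc : (hom (C.e.app _ x)).comp φ = (hom (C.e.app _ y)).comp ψ :=
      OrderHom.ext _ _ (funext fun p => (hψ' p).symm)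
    rw [hc, image_comp] at key
    ext b
    constructor
    · intro hb
      have h1 := (mem_image (hom (C.e.app _ y)) _ _).2 ⟨b, hb, rfl⟩
      rw [key, mem_image] at h1
      obtain ⟨q, hq, e⟩ := h1
      exact inj e ▸ hq
    · intro hb
      have h1 := (mem_image (hom (C.e.app _ y)) _ _).2 ⟨b, hb, rfl⟩
      rw [← key, mem_image] at h1
      obtain ⟨q, hq, e⟩ := h1
      exact inj e ▸ hq
  rw [← hS, ← ev_map, hxy, ev_map, hU]

/-- The map out of the nerve determined by a map to `ex`. -/
def desc {Y : SSet.{0}} (g : X ⟶ SSet.ex.obj Y) : CategoryTheory.nerve T ⟶ Y where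
  app d := ↾fun s =>
    ev g (C.exists_src s).choose_spec.choose (C.exists_src s).choose_spec.choose_spec.choose
  naturality d d' φ := by
    ext s
    have hs := (C.exists_src s).choose_spec.choose_spec.choose_spec
    have ht := (C.exists_src ((CategoryTheory.nerve T).map φ s)).choose_spec.choose_spec.choose_spec
    refine (C.ev_eq g _ (C.exists_src s).choose_spec.choose hs.1 _
      ((CategoryTheory.nerve _).map φ (C.exists_src s).choose_spec.choose_spec.choose) ?_).trans ?_
    · rw [ht.2]
      conv_lhs => rw [← hs.2]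
      exact (NatTrans.naturality_apply _ φ _).symm
    · exact NatTrans.naturality_apply
        (g.app _ (C.exists_src s).choose_spec.choose).down φ
        (C.exists_src s).choose_spec.choose_spec.choose

theorem unit_universal {Y : SSet.{0}} :
    Function.Bijective fun h : CategoryTheory.nerve T ⟶ Y => C.unit ≫ SSet.ex.map h := by
  constructor
  · intro h h' e
    ext d s
    obtain ⟨k, y, S, -, rfl⟩ := C.exists_src s
    exact congrArg (fun g : X ⟶ SSet.ex.obj Y => ev g y S) e
  · intro g
    refine ⟨C.desc g, ?_⟩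
    ext d x
    refine ULift.ext _ _ ?_
    refine NatTrans.ext (funext fun m => ?_)
    ext S
    have hs := (C.exists_src (push (C.img x) S)).choose_spec.choose_spec.choose_spec
    exact (C.ev_eq g x (C.exists_src (push (C.img x) S)).choose_spec.choose hs.1 S _ hs.2.symm).symm

/-- The comparison map. -/
def sdMap : SSet.sd.obj X ⟶ CategoryTheory.nerve T :=
  (SSet.sdExAdjunction.homEquiv X _).symm C.unit

theorem isIso_sdMap : IsIso C.sdMap := by
  have hb : ∀ Y : SSet.{0}, Function.Bijective fun h : CategoryTheory.nerve T ⟶ Y => C.sdMap ≫ h := by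
    intro Y
    have e : (fun h : CategoryTheory.nerve T ⟶ Y => C.sdMap ≫ h) =
        (SSet.sdExAdjunction.homEquiv X Y).symm ∘ fun h => C.unit ≫ SSet.ex.map h :=
      funext fun h => (SSet.sdExAdjunction.homEquiv_naturality_right_symm C.unit h).symm
    rw [e]
    exact (Equiv.bijective _).comp C.unit_universal
  obtain ⟨r, hr⟩ := (hb (SSet.sd.obj X)).2 (𝟙 _)
  simp only at hr
  exact ⟨r, hr, (hb _).1 (by simp [reassoc_of% hr])⟩

/-- The subdivision is the nerve of the chains. -/
def sdIso : SSet.sd.obj X ≅ CategoryTheory.nerve T :=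
  haveI := C.isIso_sdMap
  asIso C.sdMap

/-- Naturality of the comparison. -/
theorem sdMap_naturality {E' : Type} [PartialOrder E'] (C' : Chart X' E' T') (f : X ⟶ X')
    (p : E →o E') (q : T →o T') (he : f ≫ C'.e = C.e ≫ CategoryTheory.nerveMap p.monotone.functor)
    (hq : ∀ t, C'.j (q t) = NonemptyFiniteChains.orderHomMap p (C.j t)) :
    SSet.sd.map f ≫ C'.sdMap = C.sdMap ≫ CategoryTheory.nerveMap q.monotone.functor := by
  rw [sdMap, sdMap, ← Adjunction.homEquiv_naturality_left_symm,
    ← Adjunction.homEquiv_naturality_right_symm]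
  refine congrArg _ ?_
  ext d x
  refine ULift.ext _ _ ?_
  refine NatTrans.ext (funext fun m => ?_)
  ext S i
  refine C'.j_inj ?_
  refine (C'.j_img (f.app d x) _).trans (Eq.trans ?_ (hq (C.img x (hom S (ULift.up i)))).symm)
  refine Eq.trans ?_ (congrArg (NonemptyFiniteChains.orderHomMap p) (C.j_img x _)).symm
  refine Eq.trans ?_ (image_comp _ _ _)
  refine congrArg (fun h => NonemptyFiniteChains.orderHomMap h _) ?_
  exact congrArg hom (ConcreteCategory.congr_hom (congr_app he d) x)

end Chart

end Vale.Agent.P213.Sd
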